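import Vale.Agent.P029.Bdl.B2

/-!
# P029: the Deligne-Drinfeld conjecture
-/

namespace Vale.Agent.Results.P029.DeligneDrinfeld

open Vale.Agent.P029.Stmt

/-- **The Deligne-Drinfeld conjecture.** There are `σ k = f (e k)` in `W` of weight `2 k + 3` such
that the Lie algebra homomorphism `f : F → (W, {,})` with `f (e k) = σ k` is an isomorphism of
graded Lie algebras. -/
theorem result : ∃ f : F → L,
    (∀ k, IsWn (2 * k + 3) (f (FreeLieAlgebra.of ℚ k))) ∧ IsIso f :=
  Vale.Agent.P029.Bridge.deligneDrinfeld

end Vale.Agent.Results.P029.DeligneDrinfeld
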